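import Vale.Agent.P218WA.Props
import Vale.Agent.P218UP.Cell
import Vale.Agent.P218UX.Stm

/-! Weak flows: measurability in time, and the time average `bbar`. -/

open MeasureTheory Set Filter Topology Metric
open scoped ENNReal NNReal ContDiff Convolution

namespace Vale.Agent.P218WL

open P218UA P218UG P218UM P218UP P218WA
open Vale.Agent.P218.H63 (lap hessSq)

variable {w : ℝ → E3 → ℝ} {I Z : Set ℝ} {A : ℝ}

theorem cd_reg (h : IsW0 w I Z A) {q : ℝ × E3} (hq : q.1 ∈ I \ Z) :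
    ContDiffAt ℝ ∞ (fun p : ℝ × E3 => w p.1 p.2) q :=
  h.smooth.contDiffAt ((h.isOpen_reg.prod isOpen_univ).mem_nhds ⟨hq, trivial⟩)

theorem cont_lapW (h : IsW0 w I Z A) (S : Set E3) :
    ContinuousOn (fun q : ℝ × E3 => lap (w q.1) q.2) ((I \ Z) ×ˢ S) := fun _ hq =>
  (contDiffAt_lap (m := ∞) le_rfl (cd_reg h hq.1)).continuousAt.continuousWithinAt

theorem cont_hessSqW (h : IsW0 w I Z A) (S : Set E3) :
    ContinuousOn (fun q : ℝ × E3 => hessSq (w q.1) q.2) ((I \ Z) ×ˢ S) := fun q hq => by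
  have h1 := (contDiffAt_hess (m := ∞) le_rfl (cd_reg h hq.1)).continuousAt
  exact ((trL E3).continuous.continuousAt.comp (f := fun q : ℝ × E3 =>
    (fderiv ℝ (gradient (w q.1)) q.2).comp (fderiv ℝ (gradient (w q.1)) q.2))
    (h1.clm_comp h1)).continuousWithinAt

theorem hl_measW (hC : CalcW) (h : IsW0 w I Z A) (p : E3) (R : ℝ) :
    AEMeasurable (hl w p R) (volume.restrict I) := by
  classical
  have hm : Measurable (((I \ Z) ×ˢ ball p R).piecewise
      (fun q : ℝ × E3 => ENNReal.ofReal (lap (w q.1) q.2 ^ 2)) fun _ => 0) :=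
    ContinuousOn.measurable_piecewise (ENNReal.continuous_ofReal.comp_continuousOn
      ((cont_lapW h _).pow 2)) continuousOn_const
      (h.isOpen_reg.measurableSet.prod measurableSet_ball)
  refine (hC.stm_meas w I Z A h _ hm).congr ?_
  filter_upwards [ae_restrict_mem h.isOpen.measurableSet, ae_restrict_of_ae (ae_notMem h.null)]
    with t ht ht'
  rw [hl, ← lintegral_indicator measurableSet_ball]
  refine lintegral_congr fun x => ?_
  by_cases hx : x ∈ ball p R <;> simp [piecewise, ht, ht', hx, -mem_ball]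

theorem hl_toReal (h : IsW0 w I Z A) {t : ℝ} (ht : t ∈ I) (p : E3) (R : ℝ) :
    ∫ x in ball p R, lap (w t) x ^ 2 ∂(ar (w t)) = (hl w p R t).toReal :=
  integral_eq_lintegral_of_nonneg_ae (Eventually.of_forall fun _ => sq_nonneg _)
    ((surf_lap_cont (h.slice ht)).pow 2).aestronglyMeasurable

theorem cont_beta (h : IsW0 w I Z A) (z : E3) {r L : ℝ} (hr : 0 < r) (hL : 0 < L) :
    ContinuousOn (fun t => beta (ar (w t)) z r L) (I \ Z) := fun t ht => by
  obtain ⟨a, b, h1, -, h2⟩ := h.loc ht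
  exact ((continuousOn_beta P218UX.calcThm h2 z hr hL).continuousAt
    (isOpen_Ioo.mem_nhds h1)).continuousWithinAt

theorem beta_sing (h : IsW0 w I Z A) {t : ℝ} (ht : t ∈ Z) (z : E3) {r L : ℝ} (hr : 0 < r)
    (hL : 0 < L) : beta (ar (w t)) z r L = 0 := by
  refine le_antisymm ?_ (beta_nonneg _ _ _ _)
  rw [h.ar_sing ht]
  simpa using beta_le (μ := 0) (A := 0) (z := z) (fun x r _ => by simp) le_rfl hr hL

/-- a bounded measurable function which agrees with `beta` on `I` -/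
theorem exists_beta (h : IsW0 w I Z A) (z : E3) {r : ℝ} (hr : 0 < r) : ∃ b : ℝ → ℝ,
    Measurable b ∧ (∀ t, |b t| ≤ A * 10 ^ 2) ∧ ∀ t ∈ I, b t = beta (ar (w t)) z r 10 := by
  classical
  have hA : 0 ≤ A := by linarith [h.one_le]
  refine ⟨(I \ Z).piecewise (fun t => beta (ar (w t)) z r 10) fun _ => 0,
    ContinuousOn.measurable_piecewise (cont_beta h z hr (by norm_num)) continuousOn_const
      h.isOpen_reg.measurableSet, fun t => ?_, fun t ht => ?_⟩
  · by_cases ht : t ∈ I \ Z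
    · rw [piecewise_eq_of_mem _ _ _ ht, abs_of_nonneg (beta_nonneg _ _ _ _)]
      exact beta_le (h.ratio t ht.1) hA hr (by norm_num)
    · rw [piecewise_eq_of_notMem _ _ _ ht, abs_zero]
      positivity
  · by_cases ht' : t ∈ Z
    · rw [piecewise_eq_of_notMem _ _ _ fun h' => h'.2 ht', beta_sing h ht' z hr (by norm_num)]
    · rw [piecewise_eq_of_mem _ _ _ (show t ∈ I \ Z from ⟨ht, ht'⟩)]

theorem locInt_of_bdd {g : ℝ → ℝ} (hg : Measurable g) {B : ℝ} (hB : ∀ t, |g t| ≤ B) :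
    LocallyIntegrable g := fun t =>
  ⟨_, ball_mem_nhds t one_pos, Measure.integrableOn_of_bounded measure_ball_lt_top.ne
    hg.aestronglyMeasurable (Eventually.of_forall hB)⟩

/-- near a time whose window lies in `I`, `bbar` is a convolution -/
theorem bbar_conv (h : IsW0 w I Z A) (z : E3) {r t : ℝ} (hr : 0 < r)
    (hI : Icc (t - r ^ 2) t ⊆ I) : ∃ g : ℝ → ℝ, Measurable g ∧ (∀ s, |g s| ≤ A * 10 ^ 2) ∧
      (∀ s ∈ Icc (0 : ℝ) 1, g (t / r ^ 2 - s) = beta (ar (w (t - s * r ^ 2))) z r 10) ∧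
      bbar w z r =ᶠ[𝓝 t] fun t' => (k01 ⋆[ContinuousLinearMap.mul ℝ ℝ] g) (t' / r ^ 2) := by
  obtain ⟨b, b1, b2, b3⟩ := exists_beta h z hr
  have h0 : t - r ^ 2 ≤ t := by nlinarith
  obtain ⟨η, hη, h1⟩ := isCompact_Icc.exists_cthickening_subset_open h.isOpen hI
  have h2 : Icc (t - r ^ 2 - η) (t + η) ⊆ I := h.conn.out
    (h1 (mem_cthickening_of_dist_le _ _ _ _ (left_mem_Icc.2 h0) (by simp [abs_of_pos hη])))
    (h1 (mem_cthickening_of_dist_le _ _ _ _ (right_mem_Icc.2 h0) (by simp [abs_of_pos hη])))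
  have key : ∀ t' ∈ Ioo (t - η) (t + η), ∀ s ∈ Icc (0 : ℝ) 1,
      b ((t' / r ^ 2 - s) * r ^ 2) = beta (ar (w (t' - s * r ^ 2))) z r 10 := fun t' ht' s hs => by
    have h4 := window (r := r) (t := t') hs
    rw [sub_mul, div_mul_cancel₀ _ (by positivity)]
    exact b3 _ (h2 ⟨by linarith [h4.1, ht'.1], by linarith [h4.2, ht'.2]⟩)
  refine ⟨fun σ => b (σ * r ^ 2), b1.comp (by fun_prop), fun σ => b2 _,
    key t ⟨by linarith, by linarith⟩, ?_⟩
  filter_upwards [Ioo_mem_nhds (by linarith : t - η < t) (by linarith : t < t + η)] with t' ht'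
  rw [convolution_def, bbar]
  refine integral_congr_ae (Eventually.of_forall fun s => ?_)
  by_cases hs : s ∈ Icc (0 : ℝ) 1
  · simp only [ContinuousLinearMap.mul_apply', key t' ht' s hs]
  · simp [k01_eq_zero hs]

theorem bbar_smooth (h : IsW0 w I Z A) (z : E3) {r t : ℝ} (hr : 0 < r)
    (hI : Icc (t - r ^ 2) t ⊆ I) : ContDiffAt ℝ ∞ (bbar w z r) t := by
  obtain ⟨g, hg, hb, -, h1⟩ := bbar_conv h z hr hI
  exact ((compact_k01.contDiff_convolution_left _ contDiff_k01 (locInt_of_bdd hg hb)).comp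
    (contDiff_id.div_const _)).contDiffAt.congr_of_eventuallyEq h1

theorem ae_window (hZ : volume Z = 0) (t : ℝ) {r : ℝ} (hr : 0 < r) :
    ∀ᵐ s : ℝ, t - s * r ^ 2 ∉ Z := by
  have h1 : volume ((fun s => t - s) ⁻¹' Z) = 0 :=
    (Measure.measurePreserving_sub_left volume t).quasiMeasurePreserving.preimage_null hZ
  have h2 := Real.volume_preimage_mul_right (a := r ^ 2) (by positivity) ((fun s => t - s) ⁻¹' Z)
  rw [h1, mul_zero] at h2
  exact measure_eq_zero_iff_ae_notMem.1 h2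

/-- the derivative of `bbar` is bounded by the oscillation of `beta` in the window -/
theorem bbar_deriv : ∃ M : ℝ, 0 ≤ M ∧ ∀ w I Z A, IsW0 w I Z A → ∀ (z : E3)
    (r t c D : ℝ), 0 < r → Icc (t - r ^ 2) t ⊆ I → (∀ s ∈ Icc (t - r ^ 2) t \ Z,
      |beta (ar (w s)) z r 10 - c| ≤ D) → r ^ 2 * |deriv (bbar w z r) t| ≤ M * D := by
  have hk : ContDiff ℝ 1 k01 := contDiff_k01.of_le (by simp)
  have hc := hk.continuous_deriv le_rfl
  have hi : Integrable (deriv k01) := hc.integrable_of_hasCompactSupport compact_k01.deriv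
  refine ⟨∫ s, |deriv k01 s|, integral_nonneg fun _ => abs_nonneg _,
    fun w I Z A h z r t c D hr hI hD => ?_⟩
  obtain ⟨g, hg, hb, h0, h1⟩ := bbar_conv h z hr hI
  have h2 := ((compact_k01.hasDerivAt_convolution_left (ContinuousLinearMap.mul ℝ ℝ) hk
    (locInt_of_bdd hg hb) (t / r ^ 2)).comp t
      ((hasDerivAt_id t).div_const (r ^ 2))).congr_of_eventuallyEq h1
  have h3 : ∫ s, deriv k01 s = 0 := integral_eq_zero_of_hasDerivAt_of_integrable
    (fun s => (hk.differentiable one_ne_zero s).hasDerivAt) hi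
    (hk.continuous.integrable_of_hasCompactSupport compact_k01)
  have h4 : Integrable fun s => deriv k01 s * g (t / r ^ 2 - s) :=
    hi.mul_bdd (hg.comp (by fun_prop)).aestronglyMeasurable (Eventually.of_forall fun s => hb _)
  have h5 : ∫ s, deriv k01 s * g (t / r ^ 2 - s)
      = ∫ s, deriv k01 s * (g (t / r ^ 2 - s) - c) := by
    simp only [mul_sub]
    rw [integral_sub h4 (hi.mul_const _), integral_mul_const, h3, zero_mul, sub_zero]
  rw [h2.deriv, convolution_def, abs_mul, abs_of_pos (by positivity : 0 < 1 / r ^ 2),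
    mul_left_comm, mul_one_div_cancel (by positivity), mul_one, ← integral_mul_const]
  simp only [ContinuousLinearMap.mul_apply', h5]
  rw [← Real.norm_eq_abs]
  refine norm_integral_le_of_norm_le (hi.abs.mul_const D) ?_
  filter_upwards [ae_window h.null t hr] with s hZ
  by_cases hs : s ∈ Icc (0 : ℝ) 1
  · rw [norm_mul, h0 s hs]
    exact mul_le_mul_of_nonneg_left (hD _ ⟨window hs, hZ⟩) (abs_nonneg _)
  · simp [deriv_k01 hs]

end Vale.Agent.P218WL
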