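import Vale.Agent.P218WL.Osc

/-! Weak flows: the loud lattice points in a cell, and at small scales. -/

open MeasureTheory Set Filter Topology Metric
open scoped ENNReal NNReal ContDiff RealInnerProductSpace

namespace Vale.Agent.P218WL

open P218UA P218UG P218UM P218UP P218WA
open Vale.Agent.P218.H63 (lap hessSq)

variable {w : ℝ → E3 → ℝ} {I Z : Set ℝ} {A : ℝ}

/-- the total measure of the loud times whose window lies in `B` -/
theorem cntB (A C : ℝ) {δ : ℝ} (hδ : 0 < δ) : ∃ r₀ > 0, ∃ N : ℝ≥0, ∀ w I Z,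
    IsG0 w I Z A C → ∀ (p : E3) (ρ t₁ t₂ : ℝ), 0 < ρ → Icc (t₁ - ρ ^ 2) t₂ ⊆ I →
    ∀ F : Finset (ℤ × (Fin 3 → ℤ)), (∀ Q ∈ F, zQ Q ∈ ball p (2 * ρ) ∧ rQ Q ≤ r₀ * ρ) →
    ∀ B, MeasurableSet B → ∑ Q ∈ F, volume {t ∈ Icc t₁ t₂ | δ ≤ bbar w (zQ Q) (rQ Q) t ∧
      Icc (t - rQ Q ^ 2) t ⊆ B} ≤ N * ∫⁻ t in Icc (t₁ - ρ ^ 2) t₂ ∩ B, (1 + hl w p (6 * ρ) t) := by
  obtain ⟨r₀, hr₀, N, h1⟩ := cnt A C hδ
  refine ⟨min r₀ 1, by positivity, N, fun w I Z h p ρ t₁ t₂ hρ hI F hF B hB => h1 w I Z h p ρ hρ F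
    (fun Q hQ => ⟨(hF Q hQ).1, (hF Q hQ).2.trans (mul_le_mul_of_nonneg_right (min_le_left _ _)
      hρ.le)⟩) _ (measurableSet_Icc.inter hB) _ fun Q hQ t ht => ⟨ht.2.1, fun s hs => ?_⟩⟩
  have h2 := win ht.1 (rQ_pos Q) ((hF Q hQ).2.trans
    (mul_le_of_le_one_left hρ.le (min_le_right _ _))) hs
  exact ⟨hI h2, fun _ => ⟨h2, ht.2.2 hs⟩⟩

theorem count (hM : MonoW) (A C δ : ℝ) (hδ : 0 < δ) : ∃ r₀ > 0, ∃ N : ℝ≥0, ∀ w I Z,
    IsG0 w I Z A C → ∀ (p : E3) (ρ t₁ t₂ : ℝ), 0 < ρ → t₂ ≤ t₁ + ρ ^ 2 →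
    Icc (t₁ - ρ ^ 2) t₂ ⊆ I →
    ∀ F : Finset (ℤ × (Fin 3 → ℤ)), (∀ Q ∈ F, zQ Q ∈ ball p (2 * ρ) ∧ rQ Q ≤ r₀ * ρ) →
    ∑ Q ∈ F, volume {t ∈ Icc t₁ t₂ | δ ≤ bbar w (zQ Q) (rQ Q) t}
      ≤ N * ENNReal.ofReal (ρ ^ 2) := by
  obtain ⟨r₀, hr₀, N, h1⟩ := cntB A C hδ
  obtain ⟨K, hK, h2⟩ := hM.hsq
  refine ⟨r₀, hr₀, N * (2 + K * A * 38).toNNReal, fun w I Z h p ρ t₁ t₂ hρ ht hI F hF => ?_⟩
  have hA : 0 ≤ A := by linarith [h.one_le]
  have h3 := h1 w I Z h p ρ t₁ t₂ hρ hI F hF univ MeasurableSet.univ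
  simp only [subset_univ, and_true, inter_univ] at h3
  refine h3.trans ?_
  rcases lt_or_ge t₂ (t₁ - ρ ^ 2) with h4 | h4
  · simp [Icc_eq_empty_of_lt h4]
  rw [ENNReal.coe_mul, mul_assoc, lintegral_add_left measurable_const, setLIntegral_one,
    Real.volume_Icc]
  refine mul_le_mul_right ((add_le_add le_rfl (h2 w I Z A h.toIsW0 p _ (by positivity) _
    (hI (left_mem_Icc.2 h4)) _ (hI (right_mem_Icc.2 h4)) h4).1).trans ?_) _
  rw [← ENNReal.ofReal_add (by linarith) (by have := sub_nonneg.2 h4; positivity),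
    ← ENNReal.ofReal, ← ENNReal.ofReal_mul (by positivity)]
  exact ENNReal.ofReal_le_ofReal (by
    nlinarith [mul_le_mul_of_nonneg_left ht (mul_nonneg hK hA)])

/-- on a compact set of regular times the surfaces are flat at small scales -/
theorem flat_reg (h : IsW0 w I Z A) {K : Set ℝ} (hK : IsCompact K) (hI : K ⊆ I \ Z) (p : E3)
    (R : ℝ) {δ : ℝ} (hδ : 0 < δ) : ∃ r₀ > 0, ∀ t ∈ K, ∀ z ∈ ball p R, ∀ r, 0 < r → r ≤ r₀ →
      beta (ar (w t)) z r 10 ≤ δ := by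
  have hA : 0 ≤ A := by linarith [h.one_le]
  obtain ⟨ε, hε, κ, -, L, hL, h1⟩ := P218UF.flStmt A 10 δ hδ
  obtain ⟨B, hB⟩ := (hK.prod (isCompact_closedBall p (R + 1))).exists_bound_of_continuousOn
    ((cont_hessSqW h _).mono (prod_mono_left hI))
  obtain ⟨x, hx, h2⟩ := exists_pos_mul_lt hε (|B| * A)
  refine ⟨min x 1 / L, by positivity, fun t ht z hz r hr hr' => ?_⟩
  have hS := h.slice (hI ht).1
  have hR := h.ratio t (hI ht).1
  have := hR.locFin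
  rw [le_div_iff₀ hL, mul_comm, le_min_iff] at hr'
  have hLr : 0 < L * r := by positivity
  refine beta_le_of_near hδ.le (h1 _ hS hR z z r hr ((le_abs_self _).trans ?_))
  refine (norm_setIntegral_le_of_norm_le_const (C := |B|) ((measure_mono sdiff_subset).trans_lt
    measure_ball_lt_top) fun y hy => (hB (t, y) ⟨ht, ?_⟩).trans (le_abs_self B)).trans ?_
  · exact ball_subset_closedBall (ball_subset_ball' (by linarith [mem_ball.1 hz, hr'.2]) hy.1)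
  · have h3 := (measureReal_mono (sdiff_subset.trans ball_subset_closedBall :
      ball z (L * r) \ ball z (κ * r) ⊆ closedBall z (L * r))
      measure_closedBall_lt_top.ne).trans (hR.real_le hA z hLr)
    have h4 : (L * r) ^ 2 ≤ x := by nlinarith [hr'.1, hr'.2]
    nlinarith [mul_le_mul_of_nonneg_left (h3.trans (mul_le_mul_of_nonneg_left h4 hA))
      (abs_nonneg B)]

theorem tail {C : ℝ} (h : IsG0 w I Z A C) (δ : ℝ) (p : E3) (R t₁ t₂ ε : ℝ) (hδ : 0 < δ)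
    (hε : 0 < ε) (hI : Icc t₁ t₂ ⊆ I) : ∃ y : ℝ, ∀ F : Finset (ℤ × (Fin 3 → ℤ)),
      (∀ Q ∈ F, zQ Q ∈ ball p R ∧ (Q.1 : ℝ) ≤ y) →
      ∑ Q ∈ F, volume {t ∈ Icc t₁ t₂ | δ ≤ bbar w (zQ Q) (rQ Q) t} ≤ ENNReal.ofReal ε := by
  rcases lt_or_ge t₂ t₁ with h12 | h12
  · exact ⟨0, fun F _ => by simp [Icc_eq_empty_of_lt h12]⟩
  obtain ⟨r₀, hr₀, N, h1⟩ := cnt A C hδ
  obtain ⟨η, hη, h2⟩ := Metric.isOpen_iff.1 h.isOpen t₁ (hI (left_mem_Icc.2 h12))
  have hU : Icc (t₁ - η / 2) t₂ ⊆ I := h.conn.out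
    (h2 (by rw [mem_ball, Real.dist_eq, sub_sub_cancel_left, abs_neg, abs_of_pos] <;> linarith))
    (hI (right_mem_Icc.2 h12))
  have hρ : 0 < |R| + 1 := by positivity
  obtain ⟨x, hx, h3⟩ := exists_pos_mul_lt hε (N : ℝ)
  have hV := (measurableSet_Icc (a := t₁ - η / 2) (b := t₂)).diff h.closed.measurableSet
  set μ := (volume.restrict (Icc (t₁ - η / 2) t₂)).withDensity
    fun t => 1 + hl w p (6 * (|R| + 1)) t with hμ
  have : IsFiniteMeasure μ := isFiniteMeasure_withDensity (by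
    rw [lintegral_add_left measurable_const, setLIntegral_one]
    exact ENNReal.add_ne_top.2 ⟨measure_Icc_lt_top.ne, ((lintegral_mono fun t =>
      lintegral_mono_set ball_subset_closedBall).trans_lt
        (h.hsq _ _ hU _ (isCompact_closedBall p _))).ne⟩)
  obtain ⟨K, k1, k2, k3⟩ := hV.exists_isCompact_sdiff_lt (μ := μ) (measure_ne_top _ _)
    (ε := ENNReal.ofReal x) (by simpa using hx)
  obtain ⟨r₁, hr₁, h4⟩ := flat_reg h.toIsW0 k2 (k1.trans (sdiff_subset_sdiff_left hU)) p R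
    (half_pos hδ)
  refine ⟨Real.log (min (min (r₀ * (|R| + 1)) r₁) (min (η / 2) 1)), fun F hF => ?_⟩
  have h5 : ∀ Q ∈ F, (rQ Q ≤ r₀ * (|R| + 1) ∧ rQ Q ≤ r₁) ∧ rQ Q ≤ η / 2 ∧ rQ Q ≤ 1 :=
    fun Q hQ => by
    simpa only [le_min_iff, rQ] using (Real.le_log_iff_exp_le (by positivity)).1 (hF Q hQ).2
  have hW := hV.diff k2.measurableSet
  refine (h1 w I Z h p _ hρ F (fun Q hQ => ⟨ball_subset_ball (by
    linarith [le_abs_self R, abs_nonneg R]) (hF Q hQ).1, (h5 Q hQ).1.1⟩) _ hW _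
    fun Q hQ t ht => ⟨ht.2, fun s hs => ?_⟩).trans ?_
  · have h6 : s ∈ Icc (t₁ - η / 2) t₂ := ⟨by
      nlinarith [hs.1, ht.1.1, (h5 Q hQ).2.1, (h5 Q hQ).2.2, rQ_pos Q], hs.2.trans ht.1.2⟩
    refine ⟨hU h6, fun h7 => ⟨⟨h6, fun h8 => ?_⟩, fun h8 =>
      h7.not_ge (h4 s h8 _ (hF Q hQ).1 _ (rQ_pos Q) (h5 Q hQ).1.2)⟩⟩
    rw [beta_sing h.toIsW0 h8 _ (rQ_pos Q) (by norm_num)] at h7
    linarith
  · rw [hμ, withDensity_apply _ hW, Measure.restrict_restrict hW,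
      inter_eq_left.2 (sdiff_subset.trans sdiff_subset)] at k3
    refine (mul_le_mul_right k3.le _).trans ?_
    rw [← ENNReal.ofReal_coe_nnreal, ← ENNReal.ofReal_mul (by positivity)]
    exact ENNReal.ofReal_le_ofReal h3.le

theorem cellW (hC : CalcW) (hM : MonoW) : CellW := by
  obtain ⟨M, hM0, hd⟩ := bbar_deriv
  have crude : ∀ A w I Z, IsW0 w I Z A → ∀ (z : E3) (r t : ℝ), 0 < r → Icc (t - r ^ 2) t ⊆ I →
      r ^ 2 * |deriv (bbar w z r) t| ≤ M * (A * 10 ^ 2) := fun A w I Z h z r t hr hI =>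
    hd w I Z A h z r t 0 _ hr hI fun s hs => by
      rw [sub_zero, abs_of_nonneg (beta_nonneg _ _ _ _)]
      exact beta_le (h.ratio s (hI hs.1)) (by linarith [h.one_le]) hr (by norm_num)
  refine ⟨fun w I Z A h z r t => bbar_smooth h z, fun A => ⟨_, crude A⟩, count hM,
    fun A C δ Λ ε hδ hΛ hε => ?_, fun w I Z A C h => tail h⟩
  obtain ⟨r₁, hr₁, N₁, h1⟩ := cntB A C hδ
  obtain ⟨r₂, hr₂, N₂, h2⟩ := count hM A C δ hδ
  have hε4 : 0 < ε / 4 := by positivity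
  obtain ⟨η, hη, c1⟩ := exists_pos_mul_lt hε4 (M * N₂ * (100 * A))
  obtain ⟨x, hx, c2⟩ := exists_pos_mul_lt hε4 (M * N₂ * ((1 + η⁻¹) * (200 * A * Λ ^ 2)))
  obtain ⟨e, he, c3⟩ := exists_pos_mul_lt hε4 (M * N₂ * ((1 + η⁻¹) * 3))
  obtain ⟨ε', hε', c4⟩ := exists_pos_mul_lt hε4
    (M * (A * 10 ^ 2) * N₁ * ((1 + 72 * A * Λ ^ 2) * (e⁻¹ * 8) + 2))
  refine ⟨min (min r₁ r₂) (min x (1 / 10)), by positivity, ε', hε',
    fun w I Z h p ρ t₁ t₂ hρ ht hI hD hE F hF => ?_⟩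
  have hA : 0 ≤ A := by linarith [h.one_le]
  have hF' : ∀ Q ∈ F, ∀ y, min (min r₁ r₂) (min x (1 / 10)) ≤ y → rQ Q ≤ y * ρ := fun Q hQ y hy =>
    (hF Q hQ).2.trans (mul_le_mul_of_nonneg_right hy hρ.le)
  let χ : ContDiffBump p := ⟨3 * ρ, 4 * ρ, by positivity, by linarith⟩
  obtain ⟨ν, n1, n2⟩ := hC.nu w I Z A h.toIsW0 χ χ.contDiff χ.hasCompactSupport
    (fun _ => χ.nonneg) _ _ _ hI (hE χ χ.contDiff (fun _ => ⟨χ.nonneg, χ.le_one⟩)
      (χ.tsupport_eq.trans_subset (closedBall_subset_ball (show 4 * ρ < 7 * ρ by linarith))))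
  obtain ⟨B, hB, b1, b2⟩ := exists_bad ((volume.restrict (Icc (t₁ - ρ ^ 2) t₂)).withDensity
    (dl w p (7 * ρ) (Λ / ρ)) + ν) e (ρ ^ 2)
  rw [Measure.add_apply, withDensity_apply _ MeasurableSet.univ, Measure.restrict_univ] at b1
  replace b1 : volume B ≤ ENNReal.ofReal (e⁻¹ * 8 * (ε' * ρ ^ 2)) := by
    rw [mul_assoc, ENNReal.ofReal_mul (by positivity), ENNReal.ofReal_inv_of_pos he,
      ← ENNReal.mul_le_iff_le_inv (by simpa using he) ENNReal.ofReal_ne_top,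
      ENNReal.ofReal_mul (by positivity), ENNReal.ofReal_ofNat]
    exact b1.trans ((mul_le_mul_right (add_le_add hD n1) _).trans_eq (by ring))
  have b3 : ∫⁻ t in Icc (t₁ - ρ ^ 2) t₂ ∩ B, (1 + hl w p (6 * ρ) t)
      ≤ ENNReal.ofReal (((1 + 72 * A * Λ ^ 2) * (e⁻¹ * 8) + 2) * (ε' * ρ ^ 2)) := by
    refine (setLIntegral_mono' (measurableSet_Icc.inter hB) (g := fun t => ENNReal.ofReal
      (1 + 72 * A * Λ ^ 2) + ENNReal.ofReal 2 * dl w p (7 * ρ) (Λ / ρ) t) fun t ht => ?_).trans ?_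
    · have a1 := lint_le_dlW (a := Λ / ρ) h.toIsW0 (hI ht.1) (by positivity : 0 < 6 * ρ)
        (ball_subset_closedBall (x := p)) (ball_subset_ball (by linarith : 6 * ρ ≤ 7 * ρ))
        le_rfl zero_le_one
      rw [show (0 + 2 * 1 * (Λ / ρ) ^ 2) * (A * (6 * ρ) ^ 2) = 72 * A * Λ ^ 2 by field_simp; ring]
        at a1
      simp only [zero_add, one_mul, mul_one] at a1
      rw [ENNReal.ofReal_add zero_le_one (by positivity), ENNReal.ofReal_one, add_assoc]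
      exact add_le_add le_rfl a1
    · rw [lintegral_add_left measurable_const, lintegral_const_mul' _ _ ENNReal.ofReal_ne_top,
        setLIntegral_const]
      refine (add_le_add (mul_le_mul_right ((measure_mono inter_subset_right).trans b1) _)
        (mul_le_mul_right ((lintegral_mono_set inter_subset_left).trans hD) _)).trans (le_of_eq ?_)
      rw [← ENNReal.ofReal_mul (by positivity), ← ENNReal.ofReal_mul (by positivity),
        ← ENNReal.ofReal_add (by positivity) (by positivity)]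
      congr 1
      ring
  refine (Finset.sum_le_sum (g := fun Q => ENNReal.ofReal (M * (100 * A * η + (1 + η⁻¹)
    * (200 * A * (Λ ^ 2 * x) + 3 * e))) * volume {t ∈ Icc t₁ t₂ | δ ≤ bbar w (zQ Q) (rQ Q) t}
      + ENNReal.ofReal (M * (A * 10 ^ 2)) * volume {t ∈ Icc t₁ t₂ | δ ≤ bbar w (zQ Q) (rQ Q) t ∧
        Icc (t - rQ Q ^ 2) t ⊆ B}) fun Q hQ => ?_).trans ?_
  · have hr := rQ_pos Q
    have a1 := hF' Q hQ _ ((min_le_right _ _).trans (min_le_left _ _))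
    have a2 := hF' Q hQ _ ((min_le_right _ _).trans (min_le_right _ _))
    have a3 : rQ Q ≤ ρ := by linarith
    have a0 := mem_ball.1 (hF Q hQ).1
    refine lint_split (measurableSet_Icc (a := t₁) (b := t₂)) (sep_subset _ _)
      ((measurable_deriv _).abs.const_mul _).ennreal_ofReal (fun t ht => ENNReal.ofReal_le_ofReal
        (crude A w I Z h.toIsW0 _ _ t hr ((win ht hr a3).trans hI))) fun t ht a4 => ?_
    have a5 := win ht.1 hr a3
    refine ⟨ht.1, ht.2, b2 t _ (by positivity) (by gcongr) (not_lt.1 fun a6 => a4.not_ge ?_)⟩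
    rw [Measure.add_apply, withDensity_apply _ measurableSet_Icc,
      Measure.restrict_restrict measurableSet_Icc, inter_eq_left.2 a5] at a6
    have a8 : ∀ c ∈ Icc (t - rQ Q ^ 2) t \ Z, ∀ d ∈ Icc (t - rQ Q ^ 2) t \ Z, c ≤ d →
        |beta (ar (w c)) (zQ Q) (rQ Q) 10 - beta (ar (w d)) (zQ Q) (rQ Q) 10|
          ≤ 100 * A * η + (1 + η⁻¹) * (200 * A * (Λ / ρ * rQ Q) ^ 2 + 3 * e) :=
      fun c hc d hd hcd => oscW hC h.toIsW0 hr (a5.trans hI) (closedBall_subset_ball' (by linarith))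
        hη he.le (le_self_add.trans a6.le) χ.contDiff χ.hasCompactSupport (fun _ => χ.nonneg)
        (fun y hy => (χ.one_of_mem_closedBall (closedBall_subset_closedBall' (show _ ≤ 3 * ρ by
          linarith) hy)).ge) hc hd hcd ((ENNReal.ofReal_le_ofReal_iff (by positivity)).1
          ((n2 c ⟨a5 hc.1, hc.2⟩ d ⟨a5 hd.1, hd.2⟩ hcd).trans ((measure_mono (Icc_subset_Icc
            hc.1.1 hd.1.2)).trans (le_add_self.trans a6.le))))
    obtain ⟨c, hc, hc'⟩ := exists_notMem h.null (show t - rQ Q ^ 2 < t by nlinarith)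
    have a9 : c ∈ Icc (t - rQ Q ^ 2) t \ Z := ⟨Ioo_subset_Icc_self hc, hc'⟩
    refine ENNReal.ofReal_le_ofReal (hd w I Z A h.toIsW0 _ _ t _ _ hr (a5.trans hI) fun s hs =>
      ((le_total s c).elim (a8 s hs c a9) fun h' =>
        (abs_sub_comm _ _).trans_le (a8 c a9 s hs h')).trans ?_)
    have a7 : (Λ / ρ * rQ Q) ^ 2 ≤ Λ ^ 2 * x := by
      rw [div_mul_eq_mul_div, div_pow, div_le_iff₀ (by positivity), mul_pow, mul_assoc]
      exact mul_le_mul_of_nonneg_left (by nlinarith) (sq_nonneg Λ)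
    gcongr
  · rw [Finset.sum_add_distrib, ← Finset.mul_sum, ← Finset.mul_sum]
    refine (add_le_add (mul_le_mul_right (h2 w I Z h p ρ t₁ t₂ hρ ht hI F fun Q hQ => ⟨(hF Q hQ).1,
      hF' Q hQ _ ((min_le_left _ _).trans (min_le_right _ _))⟩) _) (mul_le_mul_right
        ((h1 w I Z h p ρ t₁ t₂ hρ hI F (fun Q hQ => ⟨(hF Q hQ).1, hF' Q hQ _
          ((min_le_left _ _).trans (min_le_left _ _))⟩) B hB).trans
            (mul_le_mul_right b3 _)) _)).trans ?_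
    rw [← ENNReal.ofReal_coe_nnreal, ← ENNReal.ofReal_coe_nnreal,
      ← ENNReal.ofReal_mul (by positivity), ← ENNReal.ofReal_mul (by positivity),
      ← ENNReal.ofReal_mul (by positivity), ← ENNReal.ofReal_mul (by positivity),
      ← ENNReal.ofReal_add (by positivity) (by positivity)]
    refine ENNReal.ofReal_le_ofReal ?_
    nlinarith [mul_le_mul_of_nonneg_right (add_le_add (add_le_add c1.le c2.le)
      (add_le_add c3.le c4.le)) (sq_nonneg ρ)]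

end Vale.Agent.P218WL
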