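import Vale.Agent.P218WL.Base
import Vale.Agent.P218UZ.Flat
import Vale.Agent.P218UU.Weak

/-! Tangent flows of weak flows are close to parallel planes at small scales. -/

open MeasureTheory Set Filter Topology Metric
open scoped ENNReal NNReal RealInnerProductSpace ContDiff

namespace Vale.Agent.P218WL

open Vale.Agent.P218 (WeakTendsto)
open Vale.Agent.P218.H63 (lap hessSq)
open P218UA P218WA P218UZ

theorem tanW_comp {w : ℝ → E3 → ℝ} {Z : Set ℝ} {s : ℕ → ℝ} {ν : Measure E3} (h : TanW w Z s ν)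
    {ψ : ℕ → ℕ} (hψ : Tendsto ψ atTop atTop) : TanW w Z (s ∘ ψ) ν :=
  ⟨tanSeq_comp h.toTanSeq hψ, fun _ => h.regT _⟩

/-- regular times with bounded curvature energy -/
lemma exists_times (h1 : CalcW) (h2 : MonoW) (hT : TangW) {w : ℝ → E3 → ℝ} {Z : Set ℝ}
    {a A C : ℝ} (ha : a < 0) (hw : IsG0 w (Ioo a 0) Z A C) {s : ℕ → ℝ} {ν : Measure E3}
    (hs : TanW w Z s ν) {ρ : ℝ} (hρ : 0 < ρ) : ∃ (W : ℕ → E3 → ℝ) (c E : ℝ), 1 ≤ c ∧ c ≤ 2 ∧
      WeakTendsto (fun i => ar (W i)) (scal ν c) ∧ ∀ᶠ i in atTop, IsSurf (W i) ∧ AR (ar (W i)) A ∧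
        ∫ x in ball 0 ρ, hessSq (W i) x ∂(ar (W i)) ≤ E := by
  obtain ⟨K, hK0, hK⟩ := h2.hsq
  have hg := fun i => h1.rescG0 w a Z A C hw (s i) (hs.pos i)
  have hex : ∀ i, ∃ t ∈ Icc (-2 : ℝ) (-1) \ zs Z (s i), a / s i ^ 2 < -2 →
      P218UP.hl (resc w (s i)) 0 (2 * ρ) t ≤ ENNReal.ofReal (K * A * ((2 * ρ) ^ 2 + 1)) :=
    fun i => by
    by_cases hi : a / s i ^ 2 < -2
    · have hI : Icc (-2 : ℝ) (-1) \ zs Z (s i) ⊆ Ioo (a / s i ^ 2) 0 := fun t ht =>
        ⟨hi.trans_le ht.1.1, ht.1.2.trans_lt (by norm_num)⟩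
      have hv : volume (Icc (-2 : ℝ) (-1) \ zs Z (s i)) = 1 := by
        rw [measure_sdiff_null (hg i).null]; norm_num
      obtain ⟨t, ht, h⟩ := exists_le_setLAverage (μ := volume)
        (s := Icc (-2 : ℝ) (-1) \ zs Z (s i)) (by simp [hv]) (by simp [hv])
        ((hl_measW h1 (hg i).toIsW0 0 (2 * ρ)).mono_set hI)
      refine ⟨t, ht, fun _ => h.trans ?_⟩
      rw [setLAverage_eq, hv, div_one]
      exact (lintegral_mono_set sdiff_subset).trans ((hK _ _ _ A (hg i).toIsW0 0 (2 * ρ)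
        (by linarith) (-2) ⟨hi, by norm_num⟩ (-1) ⟨by linarith, by norm_num⟩
        (by norm_num)).1.trans_eq (by norm_num))
    · exact ⟨-1, ⟨⟨by norm_num, le_rfl⟩, hs.regT i⟩, fun h => (hi h).elim⟩
  choose t ht hE using hex
  obtain ⟨t', ht', ψ, hψ, hlim⟩ := isCompact_Icc.tendsto_subseq fun i => (ht i).1
  refine ⟨fun i => resc w (s (ψ i)) (t (ψ i)), √(-t'), C * (1 + K * A * ((2 * ρ) ^ 2 + 1)),
    Real.one_le_sqrt.2 (by linarith [ht'.2]), Real.sqrt_le_iff.2 ⟨by norm_num, by linarith [ht'.1]⟩,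
    hT.slow w a Z A ha hw.toIsW0 _ ν (tanW_comp hs hψ.tendsto_atTop) _ t'
      (by linarith [ht'.2]) hlim (Eventually.of_forall fun i => (ht (ψ i)).2), ?_⟩
  filter_upwards [hψ.tendsto_atTop.eventually (ev_lt hs.toTanSeq ha (-2))] with i hi
  have hm : t (ψ i) ∈ Ioo (a / s (ψ i) ^ 2) 0 :=
    ⟨hi.trans_le (ht _).1.1, (ht _).1.2.trans_lt (by norm_num)⟩
  refine ⟨(hg _).slice hm, (hg _).ratio _ hm, ((hg _).lgb _ hm 0 ρ hρ).trans ?_⟩
  have hA := hw.one_le
  have hC := hw.one_le'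
  rw [hl_toReal (hg _).toIsW0 hm]
  have := ENNReal.toReal_le_of_le_ofReal (by positivity) (hE _ hi)
  gcongr

theorem flatW (h1 : CalcW) (h2 : MonoW) (hT : TangW) : FlatW := by
  intro w a Z A C ha hw s ν hs R L δ hδ
  by_contra hne
  push Not at hne
  obtain ⟨ε, hε, κ, hκ, L', hL', hFL⟩ := P218UF.flStmt A L (δ / 2) (half_pos hδ)
  choose z hz r hr0 hr1 hbad using fun k : ℕ => hne (1 / ((k : ℝ) + 1)) Nat.one_div_pos_of_nat
  obtain ⟨p, hp, ψ, hψ, hlim⟩ := (isCompact_closedBall (0 : E3) R).tendsto_subseq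
    (x := z) fun k => mem_closedBall_zero_iff.2 (hz k)
  have hr : Tendsto (r ∘ ψ) atTop (𝓝 0) :=
    (squeeze_zero (fun k => (hr0 k).le) (fun k => (hr1 k).le)
      tendsto_one_div_add_atTop_nhds_zero_nat).comp hψ.tendsto_atTop
  have hstep : ∀ b : ℝ, ∃ k, 0 < b → ‖z k - p‖ + L' * r k ≤ b ∧ κ * r k ≤ b := fun b => by
    by_cases hb : 0 < b
    · have e1 := (tendsto_iff_norm_sub_tendsto_zero.1 hlim).add (hr.const_mul L')
      have e2 := hr.const_mul κ
      rw [mul_zero] at e1 e2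
      rw [add_zero] at e1
      obtain ⟨k, hk⟩ := ((e1.eventually (ge_mem_nhds hb)).and (e2.eventually (ge_mem_nhds hb))).exists
      exact ⟨ψ k, fun _ => hk⟩
    · exact ⟨0, fun h => (hb h).elim⟩
  choose k hk using hstep
  let b : ℕ → ℝ := fun j => Nat.rec 1 (fun _ x => κ * r (k x)) j
  have hb1 : ∀ j, b (j + 1) = κ * r (k (b j)) := fun _ => rfl
  have hb0 : ∀ j, 0 < b j := fun j => by
    cases j
    · exact one_pos
    · exact mul_pos hκ (hr0 _)
  have hR : 0 ≤ R := (norm_nonneg _).trans (hz 0)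
  obtain ⟨W, c, E, hc1, hc2, hweak, hW⟩ := exists_times h1 h2 hT ha hw hs
    (show 0 < 2 * R + 2 by linarith)
  have hc : 0 < c := by linarith
  obtain ⟨N, hN⟩ := exists_nat_gt (E / ε)
  have hnear := (eventually_all_finset (Finset.range N)).2 fun j _ =>
    P218UU.near_lim (hW.mono fun i hi => hi.2.1)
      (AR_scal (hT.ratio w a Z A ha hw.toIsW0 s ν hs) hc) hweak (2 * R) (c * r (k (b j)))
      (c * r (k (b j))) L (δ / 2) (mul_pos hc (hr0 _)) (half_pos hδ)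
  obtain ⟨i, ⟨hS, hA, hE⟩, hi⟩ := (hW.and hnear).exists
  have hlf := hA.locFin
  have hcd := P218UK.surf_cd2 hS
  have hint : ∀ (x : E3) (ρ : ℝ), IntegrableOn (hessSq (W i)) (ball x ρ) (ar (W i)) := fun x ρ =>
    ((P218UE.continuous_hessSq hcd).continuousOn.integrableOn_compact
      (isCompact_closedBall x ρ)).mono_set ball_subset_closedBall
  have hnn : ∀ x, 0 ≤ hessSq (W i) x := fun x => P218UE.hessSq_nonneg hcd.contDiffAt
  have hn : ∀ x : E3, ‖c • x‖ = c * ‖x‖ := fun x => by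
    rw [norm_smul, Real.norm_eq_abs, abs_of_pos hc]
  obtain ⟨j, hj, hsm⟩ := exists_small (μ := ar (W i)) hnn (p := c • p) (b := fun j => c * b j)
    (fun i j hij => mul_le_mul_of_nonneg_left
      (antitone_nat_of_succ_le (fun j => (hk _ (hb0 j)).2) hij) hc.le) (hint _ _)
    ((setIntegral_mono_set (hint _ _) (Eventually.of_forall hnn) (LE.le.eventuallyLE
      (ball_subset_ball' (by
        have := mem_closedBall_zero_iff.1 hp
        rw [dist_zero_right, hn]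
        change c * 1 + _ ≤ _
        nlinarith [norm_nonneg p])))).trans hE) ((div_lt_iff₀ hε).1 hN)
  obtain ⟨n, m, h, hn1, hφ⟩ := hFL _ hS hA (c • z (k (b j))) (c • p) (c * r (k (b j)))
    (mul_pos hc (hr0 _)) ((setIntegral_mono_set ((hint _ _).mono_set sdiff_subset)
      (Eventually.of_forall hnn) (LE.le.eventuallyLE (sdiff_subset_sdiff
        (ball_subset_ball' (by
          rw [dist_eq_norm, ← smul_sub, hn]
          nlinarith [(hk _ (hb0 j)).1]))
        (ball_subset_ball (by rw [hb1]; exact le_of_eq (by ring)))))).trans hsm)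
  refine hbad (k (b j)) ((nearPl_scal hc).1 ⟨n, m, h, hn1, fun φ hφ' => ?_⟩)
  have e1 := abs_le.1 (hφ φ hφ')
  have e2 := abs_le.1 (hi j (Finset.mem_range.2 hj) (c • z (k (b j)))
    (by rw [hn]; nlinarith [hz (k (b j)), norm_nonneg (z (k (b j)))]) _ ⟨le_rfl, le_rfl⟩ φ hφ')
  rw [abs_le]
  constructor <;> linarith [e1.1, e1.2, e2.1, e2.2]

end Vale.Agent.P218WL
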