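import Vale.Agent.P218WL.Base

/-! Weak flows: the oscillation of `beta` in a window, and the number of loud lattice points. -/

open MeasureTheory Set Filter Topology Metric
open scoped ENNReal NNReal ContDiff RealInnerProductSpace

namespace Vale.Agent.P218WL

open P218UA P218UG P218UM P218UP P218WA
open Vale.Agent.P218.H63 (lap hessSq)

variable {w : ℝ → E3 → ℝ} {I Z : Set ℝ} {A : ℝ}

/-- an integral over a small ball whose integrand is at most `c + K H²` -/
theorem lint_le_dlW (h : IsW0 w I Z A) {t : ℝ} (ht : t ∈ I) {z p : E3} {r R a c K : ℝ}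
    (hr : 0 < r) {S : Set E3} (hS : S ⊆ closedBall z r) (hS' : S ⊆ ball p R) (hc : 0 ≤ c)
    (hK : 0 ≤ K) : ∫⁻ x in S, ENNReal.ofReal (c + K * lap (w t) x ^ 2) ∂(ar (w t))
      ≤ ENNReal.ofReal ((c + 2 * K * a ^ 2) * (A * r ^ 2))
        + ENNReal.ofReal (2 * K) * dl w p R a t := by
  refine le_trans ?_ (add_le_add (lint_ball_le (h.ratio t ht) hr hS (by positivity))
    (mul_le_mul_right (lintegral_mono_set hS') _))
  rw [← lintegral_const_mul' _ _ ENNReal.ofReal_ne_top, ← lintegral_add_left measurable_const]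
  refine lintegral_mono fun x => ?_
  rw [← ENNReal.ofReal_mul (by positivity), ← ENNReal.ofReal_add (by positivity) (by positivity)]
  exact ENNReal.ofReal_le_ofReal (by
    nlinarith [mul_le_mul_of_nonneg_left (sq_le_add (lap (w t) x) a) hK])

theorem bk_static (w : ℝ → E3 → ℝ) (f : E3 → ℝ) (t : ℝ) : bk w (fun _ => f) t
    = ∫ x, (-(lap (w t) x * ⟪gradient f x, gradient (w t) x⟫) - lap (w t) x ^ 2 * f x)
      ∂(ar (w t)) := by
  simp only [bk, deriv_const', zero_sub]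

/-- the size of the right-hand side of Brakke's inequality for a rescaled test function -/
theorem bk_enorm (h : IsW0 w I Z A) {t : ℝ} (ht : t ∈ I) {L r η : ℝ} {φ : E3 → ℝ}
    (hφ : IsTest L φ) (hr : 0 < r) (hη : 0 < η) (z : E3) :
    ‖bk w (fun _ y => φ (r⁻¹ • (y - z))) t‖ₑ ≤ ∫⁻ y in closedBall z (L * r),
      ENNReal.ofReal (η * r⁻¹ ^ 2 + (1 + η⁻¹) * lap (w t) y ^ 2) ∂(ar (w t)) := by
  have hS := h.slice ht
  rw [bk_static, ← setIntegral_eq_integral_of_forall_compl_eq_zero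
    (s := closedBall z (L * r)) fun y hy => by
      simp [test_zero hφ hr y hy, grad_zero_of_notMem isClosed_closedBall (test_zero hφ hr) hy]]
  refine (enorm_integral_le_lintegral_enorm _).trans (lintegral_mono_ae ?_)
  filter_upwards [ae_restrict_of_ae (ae_ar hS)] with y hy
  rw [Real.enorm_eq_ofReal_abs]
  refine ENNReal.ofReal_le_ofReal ((abs_sub _ _).trans ?_)
  have a3 := abs_real_inner_le_norm (gradient (fun y : E3 => φ (r⁻¹ • (y - z))) y)
    (gradient (w t) y)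
  rw [surf_unit hS hy, mul_one] at a3
  have a4 := mul_le_mul_of_nonneg_left (a3.trans (norm_grad_test hφ hr z y))
    (abs_nonneg (lap (w t) y))
  have a5 := mul_le_mul_of_nonneg_left (hφ.le_one (r⁻¹ • (y - z))) (sq_nonneg (lap (w t) y))
  have a6 := mul_nonneg (inv_pos.2 hη).le (sq_nonneg (η * r⁻¹ - |lap (w t) y|))
  have a7 : η⁻¹ * (η * r⁻¹ - |lap (w t) y|) ^ 2
      = η * r⁻¹ ^ 2 - 2 * (|lap (w t) y| * r⁻¹) + η⁻¹ * lap (w t) y ^ 2 := by
    rw [← sq_abs (lap (w t) y)]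
    field_simp
    ring
  have a8 : 0 ≤ |lap (w t) y| * r⁻¹ := by positivity
  rw [abs_neg, abs_mul, abs_mul, abs_of_nonneg (sq_nonneg (lap (w t) y))]
  linarith

theorem test_static (h : IsW0 w I Z A) {L r : ℝ} {φ : E3 → ℝ} (hφ : IsTest L φ) (hr : 0 < r)
    (z : E3) : Test 1 I I fun _ y => φ (r⁻¹ • (y - z)) :=
  Test.static h (hφ.smooth.comp (by fun_prop))
    (HasCompactSupport.intro (isCompact_closedBall z (L * r)) (test_zero hφ hr))

/-- the oscillation of `beta` in a window in which `H` is almost bounded and the defect is small -/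
theorem oscW (hC : CalcW) (h : IsW0 w I Z A) {z p : E3} {r t R a η e : ℝ} (hr : 0 < r)
    (hI : Icc (t - r ^ 2) t ⊆ I) (hz : closedBall z (10 * r) ⊆ ball p R) (hη : 0 < η) (he : 0 ≤ e)
    (hd : ∫⁻ s in Icc (t - r ^ 2) t, dl w p R a s ≤ ENNReal.ofReal (e * r ^ 2)) {χ : E3 → ℝ}
    (c1 : ContDiff ℝ 1 χ) (c2 : HasCompactSupport χ) (c3 : ∀ x, 0 ≤ χ x)
    (c4 : ∀ x ∈ closedBall z (10 * r), 1 ≤ χ x) {c d : ℝ} (hc : c ∈ Icc (t - r ^ 2) t \ Z)
    (hd' : d ∈ Icc (t - r ^ 2) t \ Z) (hcd : c ≤ d) (hν : dfc w (fun _ => χ) c d ≤ e * r ^ 2) :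
    |beta (ar (w c)) z r 10 - beta (ar (w d)) z r 10|
      ≤ 100 * A * η + (1 + η⁻¹) * (200 * A * (a * r) ^ 2 + 3 * e) := by
  have hA : 0 ≤ A := by linarith [h.one_le]
  have key : ∀ φ, IsTest 10 φ → |(∫ y, φ (r⁻¹ • (y - z)) ∂(ar (w d))) / r ^ 2
      - (∫ y, φ (r⁻¹ • (y - z)) ∂(ar (w c))) / r ^ 2|
      ≤ 100 * A * η + (1 + η⁻¹) * (200 * A * (a * r) ^ 2 + 3 * e) := fun φ hφ => by
    have h1 := (hC.dfc_le w I Z A h I _ _ (test_static h hφ hr z) (Test.static h c1 c2) c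
      ⟨hI hc.1, hc.2⟩ d ⟨hI hd'.1, hd'.2⟩ hcd fun _ _ x => by
        by_cases hx : x ∈ closedBall z (10 * r)
        · exact (hφ.le_one _).trans (c4 x hx)
        · simpa [test_zero hφ hr x hx] using c3 x).trans hν
    have h2 : ‖∫ τ in c..d, bk w (fun _ y => φ (r⁻¹ • (y - z))) τ‖ₑ
        ≤ ∫⁻ τ in Icc (t - r ^ 2) t, ‖bk w (fun _ y => φ (r⁻¹ • (y - z))) τ‖ₑ := by
      rw [intervalIntegral.integral_of_le hcd]
      exact (enorm_integral_le_lintegral_enorm _).trans (lintegral_mono_set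
        (Ioc_subset_Icc_self.trans (Icc_subset_Icc hc.1.1 hd'.1.2)))
    have h4 := h2.trans (setLIntegral_mono' measurableSet_Icc fun τ hτ =>
      (bk_enorm h (hI hτ) hφ hr hη z).trans (lint_le_dlW (a := a) h (hI hτ) (by positivity)
        Subset.rfl hz (by positivity) (by positivity)))
    rw [lintegral_add_left measurable_const, lintegral_const_mul' _ _ ENNReal.ofReal_ne_top,
      setLIntegral_const, Real.volume_Icc, Real.enorm_eq_ofReal_abs] at h4
    replace h4 := h4.trans (add_le_add le_rfl (mul_le_mul_right hd _))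
    rw [← ENNReal.ofReal_mul (by positivity), ← ENNReal.ofReal_mul (by positivity),
      ← ENNReal.ofReal_add (by rw [sub_sub_cancel]; positivity) (by positivity),
      ENNReal.ofReal_le_ofReal_iff (by rw [sub_sub_cancel]; positivity)] at h4
    rw [← sub_div, abs_div, abs_of_pos (by positivity : 0 < r ^ 2), div_le_iff₀ (by positivity)]
    have h5 : (η * r⁻¹ ^ 2 + 2 * (1 + η⁻¹) * a ^ 2) * (A * (10 * r) ^ 2) * (t - (t - r ^ 2))
        + 2 * (1 + η⁻¹) * (e * r ^ 2) + (1 + η⁻¹) * (e * r ^ 2)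
        = (100 * A * η + (1 + η⁻¹) * (200 * A * (a * r) ^ 2 + 3 * e)) * r ^ 2 := by
      field_simp
      ring
    have h6 : 0 ≤ η⁻¹ * (e * r ^ 2) := by positivity
    unfold dfc at h1
    rw [abs_le] at h1 h4 ⊢
    constructor <;> linarith [h1.1, h1.2, h4.1, h4.2]
  have h5 := beta_le_add (h.ratio c (hI hc.1)) hA hr (by norm_num) (by positivity) key
  have h6 := beta_le_add (h.ratio d (hI hd'.1)) hA hr (by norm_num)
    (by positivity) fun φ hφ => (abs_sub_comm _ _).trans_le (key φ hφ)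
  rw [abs_le]
  constructor <;> linarith

/-- the total measure of the loud times, if `beta` is large only at times in `V` -/
theorem cnt (A C : ℝ) {δ : ℝ} (hδ : 0 < δ) : ∃ r₀ > 0, ∃ N : ℝ≥0, ∀ w I Z,
    IsG0 w I Z A C → ∀ (p : E3) (ρ : ℝ), 0 < ρ → ∀ F : Finset (ℤ × (Fin 3 → ℤ)),
    (∀ Q ∈ F, zQ Q ∈ ball p (2 * ρ) ∧ rQ Q ≤ r₀ * ρ) → ∀ V, MeasurableSet V →
    ∀ T : ℤ × (Fin 3 → ℤ) → Set ℝ, (∀ Q ∈ F, ∀ t ∈ T Q, δ ≤ bbar w (zQ Q) (rQ Q) t ∧
      ∀ s ∈ Icc (t - rQ Q ^ 2) t, s ∈ I ∧ (δ / 2 < beta (ar (w s)) (zQ Q) (rQ Q) 10 → s ∈ V)) →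
    ∑ Q ∈ F, volume (T Q) ≤ N * ∫⁻ t in V, (1 + hl w p (6 * ρ) t) := by
  classical
  obtain ⟨r₀, hr₀, N, h1⟩ := static A C (half_pos hδ)
  refine ⟨r₀, hr₀, (A * 10 ^ 2 / (δ / 2)).toNNReal * N, fun w I Z h p ρ hρ F hF V hV T hT => ?_⟩
  have hA : 0 ≤ A := by linarith [h.one_le]
  set S : ℤ × (Fin 3 → ℤ) → Set ℝ := fun Q =>
    (I \ Z) ∩ (fun t => beta (ar (w t)) (zQ Q) (rQ Q) 10) ⁻¹' Ioi (δ / 2)
  have hS : ∀ Q, MeasurableSet (S Q) := fun Q => ((cont_beta h.toIsW0 _ (rQ_pos Q)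
    (by norm_num)).isOpen_inter_preimage h.isOpen_reg isOpen_Ioi).measurableSet
  calc _ ≤ ∑ Q ∈ F, ENNReal.ofReal (A * 10 ^ 2 / (δ / 2)) * ∫⁻ t in V, (S Q).indicator 1 t := by
        refine Finset.sum_le_sum fun Q hQ => ?_
        rw [lintegral_indicator_one (hS Q), Measure.restrict_apply (hS Q), div_eq_inv_mul,
          ENNReal.ofReal_mul (by positivity), ENNReal.ofReal_inv_of_pos (half_pos hδ), mul_assoc,
          ← ENNReal.mul_le_iff_le_inv (by simpa using hδ) ENNReal.ofReal_ne_top]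
        refine loud_le ((hS Q).inter hV) (half_pos hδ).le (by positivity)
          (b := fun t => beta (ar (w t)) (zQ Q) (rQ Q) 10) (r := rQ Q)
          (fun t ht => (by ring : 2 * (δ / 2) = δ).trans_le (hT Q hQ t ht).1) fun t ht s hs => ?_
        obtain ⟨h2, h3⟩ := (hT Q hQ t ht).2 s hs
        refine ⟨beta_le (h.ratio s h2) hA (rQ_pos Q) (by norm_num),
          fun h4 => ⟨⟨⟨h2, fun h5 => ?_⟩, h4⟩, h3 h4⟩⟩
        rw [beta_sing h.toIsW0 h5 _ (rQ_pos Q) (by norm_num)] at h4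
        linarith
    _ ≤ _ := by
        rw [← Finset.mul_sum, ← lintegral_finsetSum _ fun Q _ => measurable_one.indicator (hS Q),
          ENNReal.coe_mul, mul_assoc, ← lintegral_const_mul' _ _ ENNReal.coe_ne_top]
        refine mul_le_mul_right (lintegral_mono fun t => ?_) _
        by_cases ht' : t ∈ I
        · refine le_trans (le_of_eq ?_) (h1 (w t) (h.slice ht') (h.ratio t ht') (h.lgb t ht')
            (by linarith [h.one_le']) p ρ hρ (F.filter fun Q => t ∈ S Q) fun Q hQ => ?_)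
          · rw [Finset.card_filter]
            simp [indicator]
          · rw [Finset.mem_filter] at hQ
            exact ⟨hF Q hQ.1, hQ.2.2⟩
        · rw [Finset.sum_eq_zero fun Q _ => indicator_of_notMem (fun h' => ht' h'.1.1) _]
          exact zero_le

end Vale.Agent.P218WL
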