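import Vale.Agent.P218WL.Osc
import Vale.Agent.P218UD.Lat
import Vale.Agent.P218UU.Weak

/-! Weak flows: the points at which the mass ratio has just dropped. -/

open MeasureTheory Set Filter Topology Metric
open scoped ENNReal NNReal ContDiff RealInnerProductSpace

namespace Vale.Agent.P218WL

open P218UA P218UG P218UM P218UP P218WA
open Vale.Agent.P218.H63 (lap hessSq)

variable {w : ℝ → E3 → ℝ} {I Z : Set ℝ} {A : ℝ}

/-- a drop of the mass ratio is due to the defect or to the mean curvature -/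
theorem drop (hC : CalcW) (h : IsW0 w I Z A) {x z : E3} {r R σ t : ℝ} (hr : 0 < r) (hσ : 0 < σ)
    (hσ1 : σ ≤ 1) (hI : Icc (t - r ^ 2) t ⊆ I) (ht : t ∉ Z) (h1 : mk (ar (w t)) x r ≤ 11 / 10)
    (h2 : 3 / 2 ≤ (∫ s in (t - σ * r ^ 2)..t, mk (ar (w s)) x r) / (σ * r ^ 2)) {χ : E3 → ℝ}
    (c1 : ContDiff ℝ 1 χ) (c2 : HasCompactSupport χ) (c3 : ∀ y, 0 ≤ χ y)
    (c4 : ∀ y ∈ closedBall x r, 1 ≤ χ y) (hb : closedBall x r ⊆ ball z R) :
    ∃ τ ∈ Icc (t - r ^ 2) t \ Z, ENNReal.ofReal ((40 * (1 + 80 * A))⁻¹ * r ^ 2)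
      ≤ (∫⁻ s in Icc (t - r ^ 2) t, hl w z R s) + ENNReal.ofReal (dfc w (fun _ => χ) τ t) := by
  have hA := h.one_le
  have h0 : 0 < σ * r ^ 2 := by positivity
  have h3 : σ * r ^ 2 ≤ r ^ 2 := mul_le_of_le_one_left (sq_nonneg r) hσ1
  obtain ⟨τ, hτ, h4⟩ : ∃ τ ∈ Icc (t - r ^ 2) t \ Z, 7 / 5 < mk (ar (w τ)) x r := by
    by_contra! h4
    have h5 := intervalIntegral.norm_integral_le_of_norm_le_const_ae (a := t - σ * r ^ 2) (b := t)
      (C := 7 / 5) (f := fun s => mk (ar (w s)) x r) (by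
        filter_upwards [ae_notMem h.null] with s hs hs'
        rw [uIoc_of_le (by linarith)] at hs'
        rw [Real.norm_of_nonneg (mk_nonneg _ _ _)]
        exact h4 s ⟨⟨by linarith [hs'.1], hs'.2⟩, hs⟩)
    rw [sub_sub_cancel, abs_of_pos h0] at h5
    rw [le_div_iff₀ h0] at h2
    linarith [Real.le_norm_self (∫ s in (t - σ * r ^ 2)..t, mk (ar (w s)) x r)]
  refine ⟨τ, hτ, ?_⟩
  have ht' : t ∈ Icc (t - r ^ 2) t := right_mem_Icc.2 (by linarith)
  have hφ := P218UU.isTest_kk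
  have h5 := hC.dfc_le w I Z A h I _ _ (test_static h hφ hr x) (Test.static h c1 c2) τ
    ⟨hI hτ.1, hτ.2⟩ t ⟨hI ht', ht⟩ hτ.1.2 fun _ _ y => by
      by_cases hy : y ∈ closedBall x (1 * r)
      · exact (hφ.le_one _).trans (c4 y (by simpa using hy))
      · simpa [test_zero hφ hr y hy] using c3 y
  have h6 : ‖∫ s in τ..t, bk w (fun _ y => kk (r⁻¹ • (y - x)) / 8) s‖ₑ
      ≤ ENNReal.ofReal (r ^ 2 / 80)
        + ENNReal.ofReal (1 + 80 * A) * ∫⁻ s in Icc (t - r ^ 2) t, hl w z R s := by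
    rw [intervalIntegral.integral_of_le hτ.1.2]
    refine (enorm_integral_le_lintegral_enorm _).trans ((lintegral_mono_set
      (Ioc_subset_Icc_self.trans (Icc_subset_Icc_left hτ.1.1))).trans ((setLIntegral_mono'
        measurableSet_Icc (g := fun s => ENNReal.ofReal (1 / 80)
          + ENNReal.ofReal (1 + 80 * A) * hl w z R s) fun s hs => ?_).trans (le_of_eq ?_)))
    · refine (bk_enorm h (hI hs) hφ hr (η := (80 * A)⁻¹) (by positivity) x).trans ?_
      have a1 := lint_ball_le (h.ratio s (hI hs)) hr (Subset.refl (closedBall x r))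
        (c := (80 * A)⁻¹ * r⁻¹ ^ 2) (by positivity)
      rw [show (80 * A)⁻¹ * r⁻¹ ^ 2 * (A * r ^ 2) = 1 / 80 by field_simp] at a1
      refine le_trans ?_ (add_le_add a1 (mul_le_mul_right (lintegral_mono_set hb) _))
      rw [← lintegral_const_mul' _ _ ENNReal.ofReal_ne_top, ← lintegral_add_left measurable_const,
        one_mul, inv_inv]
      refine lintegral_mono fun y => ?_
      rw [← ENNReal.ofReal_mul (by positivity)]
      exact ENNReal.ofReal_add_le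
    · rw [lintegral_add_left measurable_const, lintegral_const_mul' _ _ ENNReal.ofReal_ne_top,
        setLIntegral_const, Real.volume_Icc, ← ENNReal.ofReal_mul (by positivity)]
      congr 2
      ring
  generalize ∫⁻ s in Icc (t - r ^ 2) t, hl w z R s = H at h6 ⊢
  rcases eq_or_ne H ⊤ with rfl | hH
  · simp
  have h7 := (abs_nonneg _).trans h5
  have h8 : 0 ≤ H.toReal := ENNReal.toReal_nonneg
  rw [← ENNReal.ofReal_toReal hH] at h6 ⊢
  rw [← ENNReal.ofReal_mul (by positivity), ← ENNReal.ofReal_add (by positivity) (by positivity),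
    Real.enorm_eq_ofReal_abs, ENNReal.ofReal_le_ofReal_iff (by positivity)] at h6
  rw [← ENNReal.ofReal_add h8 h7]
  refine ENNReal.ofReal_le_ofReal ?_
  rw [inv_mul_le_iff₀ (by positivity)]
  rw [P218UA.mk, lt_div_iff₀ (by positivity)] at h4
  rw [P218UA.mk, div_le_iff₀ (by positivity)] at h1
  generalize dfc w (fun _ => χ) τ t = D at h5 h7 ⊢
  unfold dfc at h5
  simp only [integral_div] at h5
  nlinarith [(abs_le.1 h5).2, (abs_le.1 h6).1, mul_nonneg h7 (zero_le_one.trans hA)]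

/-- lattice balls of one level have bounded overlap -/
theorem overlap {M : Type*} [AddCommMonoid M] [PartialOrder M] [IsOrderedAddMonoid M]
    {F : Finset (ℤ × (Fin 3 → ℤ))} {j : ℤ} (hF : ∀ Q ∈ F, Q.1 = j) (x : E3)
    {f : ℤ × (Fin 3 → ℤ) → M} {c : M} (hc : 0 ≤ c) (h1 : ∀ Q ∈ F, f Q ≤ c)
    (h0 : ∀ Q ∈ F, f Q ≠ 0 → x ∈ ball (zQ Q) (3 * rQ Q)) : ∑ Q ∈ F, f Q ≤ 343 • c := by
  classical
  rw [← Finset.sum_filter_of_ne h0]
  refine (Finset.sum_le_card_nsmul _ _ c fun Q hQ => h1 Q (Finset.mem_filter.1 hQ).1).trans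
    (nsmul_le_nsmul_left hc ((Finset.card_le_card (t := Finset.Icc
      (j, fun k => ⌊x k / Real.exp j⌋ - 3) (j, fun k => ⌊x k / Real.exp j⌋ + 3))
        fun Q hQ => ?_).trans (le_of_eq ?_)))
  · obtain ⟨h2, h3⟩ := Finset.mem_filter.1 hQ
    have h4 : ∀ k, |x k / Real.exp j - Q.2 k| < 3 := fun k => by
      have h5 := (PiLp.norm_apply_le (x - zQ Q) k).trans_lt (mem_ball_iff_norm.1 h3)
      rw [PiLp.sub_apply, zQ_apply, rQ, hF Q h2] at h5
      rw [div_sub' (Real.exp_pos _).ne', abs_div, abs_of_pos (Real.exp_pos _),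
        div_lt_iff₀ (Real.exp_pos _)]
      exact h5
    refine Finset.mem_Icc.2 ⟨⟨(hF Q h2).ge, fun k => ?_⟩, (hF Q h2).le, fun k => ?_⟩
    · have h5 : ((⌊x k / Real.exp j⌋ - 3 : ℤ) : ℝ) ≤ Q.2 k := by
        push_cast
        linarith [(abs_lt.1 (h4 k)).2, Int.floor_le (x k / Real.exp j)]
      exact_mod_cast h5
    · have h5 : (Q.2 k : ℝ) < ((⌊x k / Real.exp j⌋ + 3 + 1 : ℤ) : ℝ) := by
        push_cast
        linarith [(abs_lt.1 (h4 k)).1, Int.lt_floor_add_one (x k / Real.exp j)]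
      exact Int.lt_add_one_iff.1 (by exact_mod_cast h5)
  · have e : ∀ m : ℤ, (m + 3 + 1 - (m - 3)).toNat = 7 := fun m => by omega
    simp [Finset.card_Icc_prod, Pi.card_Icc, e]

theorem dfc_sum (hC : CalcW) (h : IsW0 w I Z A) {ι : Type*} {χ : ι → E3 → ℝ}
    (c1 : ∀ i, ContDiff ℝ 1 (χ i)) (c2 : ∀ i, HasCompactSupport (χ i)) {a b : ℝ} (ha : a ∈ I)
    (hb : b ∈ I) (F : Finset ι) : (ContDiff ℝ 1 fun x => ∑ i ∈ F, χ i x) ∧
      (HasCompactSupport fun x => ∑ i ∈ F, χ i x) ∧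
      ∑ i ∈ F, dfc w (fun _ => χ i) a b = dfc w (fun _ x => ∑ i ∈ F, χ i x) a b := by
  classical
  induction F using Finset.induction_on with
  | empty => exact ⟨by simpa using contDiff_const, by simpa [Pi.zero_def] using HasCompactSupport.zero,
      by simp [dfc, bk]⟩
  | insert i F hi ih =>
    simp only [Finset.sum_insert hi]
    refine ⟨(c1 i).add ih.1, (c2 i).add ih.2.1, ?_⟩
    simpa [ih.2.2] using (hC.dfc_lin w I Z A h I _ _ (Test.static h (c1 i) (c2 i))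
      (Test.static h ih.1 ih.2.1) a ha b hb 1 1).symm

theorem dfc_mono (hC : CalcW) (h : IsW0 w I Z A) {χ : E3 → ℝ} (c1 : ContDiff ℝ 1 χ)
    (c2 : HasCompactSupport χ) (c3 : ∀ y, 0 ≤ χ y) {a b : ℝ} (ha : a ∈ I \ Z) (hb : b ∈ I \ Z) :
    ∀ c ∈ Icc a b \ Z, ∀ d ∈ Icc a b \ Z, c ≤ d →
      dfc w (fun _ => χ) c d ≤ dfc w (fun _ => χ) a b := fun c hc d hd hcd => by
  have hT := Test.static h c1 c2
  have hc' := h.conn.out ha.1 hb.1 hc.1
  have hd' := h.conn.out ha.1 hb.1 hd.1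
  linarith [hC.dfc_add w I Z A h I _ hT a ha.1 c hc' b hb.1,
    hC.dfc_add w I Z A h I _ hT c hc' d hd' b hb.1,
    hC.brakke w I Z A h I _ hT a ha c ⟨hc', hc.2⟩ hc.1.1 fun _ _ => c3,
    hC.brakke w I Z A h I _ hT d ⟨hd', hd.2⟩ b hb hd.1.2 fun _ _ => c3]

theorem stm_prod_le (hC : CalcW) (h : IsW0 w I Z A) {B : Set ℝ} (hB : MeasurableSet B) (z : E3)
    {r : ℝ} (hr : 0 < r) : stm w I (B ×ˢ ball z r) ≤ ENNReal.ofReal (A * r ^ 2) * volume B := by
  have hm := hB.prod (measurableSet_ball (x := z) (ε := r))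
  rw [← lintegral_indicator_one hm, hC.stm_lint w I Z A h _ (measurable_one.indicator hm),
    ← setLIntegral_const, ← lintegral_indicator hB]
  refine (setLIntegral_mono' h.isOpen.measurableSet fun t ht => ?_).trans
    (setLIntegral_le_lintegral _ _)
  by_cases ht' : t ∈ B
  · rw [indicator_of_mem ht']
    refine le_trans ?_ ((measure_mono ball_subset_closedBall).trans (h.ratio t ht z r hr))
    rw [← lintegral_indicator_one measurableSet_ball]
    exact lintegral_mono fun x => by by_cases hx : x ∈ ball z r <;> simp [ht', hx, -mem_ball]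
  · simp [ht']

/-- a time interval with regular end points around a compact set of times -/
theorem exists_Icc (h : IsW0 w I Z A) {K : Set ℝ} (hK : IsCompact K) (hne : K.Nonempty)
    (hI : K ⊆ I) : ∃ a ∈ I \ Z, ∃ b ∈ I \ Z, ∃ η > 0, ∀ t ∈ K, a ≤ t - η ∧ t ≤ b := by
  obtain ⟨m, hm⟩ := hK.exists_isLeast hne
  obtain ⟨M, hM⟩ := hK.exists_isGreatest hne
  obtain ⟨a, a', ⟨h1, h6⟩, h2⟩ := mem_nhds_iff_exists_Ioo_subset.1 (h.isOpen.mem_nhds (hI hm.1))
  obtain ⟨b', b, ⟨h5, h3⟩, h4⟩ := mem_nhds_iff_exists_Ioo_subset.1 (h.isOpen.mem_nhds (hI hM.1))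
  obtain ⟨c, hc, hc'⟩ := exists_notMem h.null h1
  obtain ⟨d, hd, hd'⟩ := exists_notMem h.null h3
  exact ⟨c, ⟨h2 ⟨hc.1, hc.2.trans h6⟩, hc'⟩, d, ⟨h4 ⟨h5.trans hd.1, hd.2⟩, hd'⟩, m - c,
    sub_pos.2 hc.2, fun t ht => ⟨by linarith [hm.2 ht], (hM.2 ht).trans hd.1.le⟩⟩

theorem tdW (hC : CalcW) : TDW := by
  classical
  intro w I Z A h σ L hσ hσ1 K hK hI
  have hA := h.one_le
  rcases K.eq_empty_or_nonempty with rfl | hne
  · exact ⟨0, 0, fun _ _ => ⟨∅, MeasurableSet.empty, by simp, by simp⟩⟩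
  obtain ⟨a, ha, b, hb, η, hη, h1⟩ := exists_Icc h (hK.image continuous_fst) (hne.image _)
    (by rintro _ ⟨p, hp, rfl⟩; exact (hI hp).1)
  obtain ⟨R, hR, h2⟩ := (hK.image continuous_snd).isBounded.subset_ball_lt 0 0
  have hab : Icc a b ⊆ I := h.conn.out ha.1 hb.1
  have hab' : a ≤ b := by
    obtain ⟨p, hp⟩ := hne
    linarith [(h1 _ ⟨p, hp, rfl⟩).1, (h1 _ ⟨p, hp, rfl⟩).2]
  let χ : ContDiffBump (0 : E3) := ⟨R + 4, R + 5, by positivity, by linarith⟩
  have hT := Test.static h (n := 1) χ.contDiff χ.hasCompactSupport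
  have hD := hC.brakke w I Z A h I _ hT a ha b hb hab' fun _ _ _ => χ.nonneg
  have hH : ∫⁻ t in Icc a b, hl w 0 (R + 4) t ≠ ⊤ := ((lintegral_mono fun t => lintegral_mono_set
    ball_subset_closedBall).trans_lt (h.hsq _ _ hab _ (isCompact_closedBall 0 _))).ne
  have he : 0 < (40 * (1 + 80 * A))⁻¹ := by positivity
  generalize hE : (40 * (1 + 80 * A))⁻¹ = e at he
  refine ⟨A * Real.exp 4 * (e⁻¹ * (4 * (343 * ((∫⁻ t in Icc a b, hl w 0 (R + 4) t).toReal
    + dfc w (fun _ => χ) a b)))), Real.log (min η 1) - 2, fun y₀ hy => ?_⟩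
  set j : ℤ := ⌈y₀ + 1⌉
  have j1 : y₀ + 1 ≤ j := Int.le_ceil _
  have j2 : (j : ℝ) ≤ y₀ + 2 := by linarith [Int.ceil_lt_add_one (y₀ + 1)]
  have j3 : Real.exp j ≤ η ∧ Real.exp j ≤ 1 :=
    le_min_iff.1 ((Real.le_log_iff_exp_le (by positivity)).1 (by linarith))
  set F := (P218UD.finite_lat j j 0 (R + 1)).toFinset
  have hF : ∀ Q, Q ∈ F ↔ Q.1 = j ∧ zQ Q ∈ ball 0 (R + 1) := fun Q => by
    simp only [F, Finite.mem_toFinset, mem_ofPred_eq, Int.cast_le, ← and_assoc]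
    exact and_congr_left' ⟨fun h => le_antisymm h.2 h.1, fun h => ⟨h.ge, h.le⟩⟩
  have hr : ∀ Q ∈ F, rQ Q = Real.exp j := fun Q hQ => by rw [rQ, ((hF Q).1 hQ).1]
  have hs : ∀ Q ∈ F, ball (zQ Q) (3 * rQ Q) ⊆ ball 0 (R + 4) := fun Q hQ =>
    ball_subset_ball' (by linarith [mem_ball.1 ((hF Q).1 hQ).2, hr Q hQ, j3.2])
  let ψ : ∀ Q : ℤ × (Fin 3 → ℤ), ContDiffBump (zQ Q) := fun Q =>
    ⟨2 * rQ Q, 3 * rQ Q, by linarith [rQ_pos Q], by linarith [rQ_pos Q]⟩
  have c1 : ∀ Q, ContDiff ℝ 1 (ψ Q) := fun Q => (ψ Q).contDiff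
  have c2 : ∀ Q, HasCompactSupport (ψ Q) := fun Q => (ψ Q).hasCompactSupport
  choose ν n1 n2 using fun Q => hC.nu w I Z A h (ψ Q) (c1 Q) (c2 Q) (fun _ => (ψ Q).nonneg) a b _
    hab (dfc_mono hC h (c1 Q) (c2 Q) (fun _ => (ψ Q).nonneg) ha hb)
  choose B b0 b1 b2 using fun Q => exists_bad ((volume.restrict (Icc a b)).withDensity
    (hl w (zQ Q) (3 * rQ Q)) + ν Q) e 1
  refine ⟨⋃ Q ∈ F, B Q ×ˢ ball (zQ Q) (rQ Q), F.measurableSet_biUnion fun Q _ =>
    (b0 Q).prod measurableSet_ball, ?_, fun p hp h0 y hy h3 h4 => ?_⟩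
  · have s1 : ∑ Q ∈ F, ∫⁻ t in Icc a b, hl w (zQ Q) (3 * rQ Q) t
        ≤ 343 * ∫⁻ t in Icc a b, hl w 0 (R + 4) t := by
      rw [← lintegral_finsetSum' _ fun Q _ => (hl_measW hC h _ _).mono_set hab,
        ← lintegral_const_mul' _ _ (by simp)]
      refine setLIntegral_mono' measurableSet_Icc fun t ht => ?_
      have m1 : Measurable fun x => ENNReal.ofReal (lap (w t) x ^ 2) :=
        ((surf_lap_cont (h.slice (hab ht))).pow 2).measurable.ennreal_ofReal
      simp only [hl, ← lintegral_indicator measurableSet_ball]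
      rw [← lintegral_finsetSum _ fun Q _ => m1.indicator measurableSet_ball,
        ← lintegral_const_mul' _ _ (by simp)]
      refine lintegral_mono fun x => (overlap (fun Q hQ => ((hF Q).1 hQ).1) x zero_le
        (fun Q hQ => indicator_le_indicator_of_subset (hs Q hQ) (fun _ => zero_le) x)
        fun Q _ h' => mem_of_indicator_ne_zero h').trans_eq (by simp)
    have s2 : ∑ Q ∈ F, dfc w (fun _ => ψ Q) a b ≤ 343 * dfc w (fun _ => χ) a b := by
      obtain ⟨d1, d2, d3⟩ := dfc_sum hC h c1 c2 ha.1 hb.1 F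
      have d4 := hC.dfc_lin w I Z A h I _ _ hT hT a ha.1 b hb.1 343 0
      simp only [zero_mul, add_zero] at d4
      rw [d3, ← d4]
      refine (le_abs_self _).trans (hC.dfc_le w I Z A h I _ _ (Test.static h d1 d2)
        (Test.static h (contDiff_const.mul χ.contDiff) χ.hasCompactSupport.mul_left) a ha b hb hab'
        fun _ _ x => ?_)
      have d5 : ∀ Q, ψ Q x ≠ 0 → x ∈ ball (zQ Q) (3 * rQ Q) := fun Q h' =>
        (ψ Q).support_eq.subset h'
      rw [abs_of_nonneg (Finset.sum_nonneg fun Q _ => (ψ Q).nonneg)]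
      refine (overlap (fun Q hQ => ((hF Q).1 hQ).1) x (c := χ x) χ.nonneg (fun Q hQ => ?_)
        fun Q _ => d5 Q).trans_eq (by simp)
      by_cases h' : ψ Q x = 0
      · exact h'.trans_le χ.nonneg
      · exact (ψ Q).le_one.trans
          (χ.one_of_mem_closedBall (ball_subset_closedBall (hs Q hQ (d5 Q h')))).ge
    have s3 : ∑ Q ∈ F, ν Q univ ≤ 343 * ENNReal.ofReal (dfc w (fun _ => χ) a b) := by
      refine (Finset.sum_le_sum fun Q _ => n1 Q).trans ?_
      rw [← ENNReal.ofReal_sum_of_nonneg fun Q _ => hC.brakke w I Z A h I _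
        (Test.static h (c1 Q) (c2 Q)) a ha b hb hab' fun _ _ _ => (ψ Q).nonneg,
        ← ENNReal.ofReal_ofNat 343, ← ENNReal.ofReal_mul (by norm_num)]
      exact ENNReal.ofReal_le_ofReal s2
    have s4 : ∑ Q ∈ F, volume (B Q) ≤ ENNReal.ofReal (e⁻¹ * (4 * (343
        * ((∫⁻ t in Icc a b, hl w 0 (R + 4) t).toReal + dfc w (fun _ => χ) a b)))) := by
      rw [ENNReal.ofReal_mul (by positivity), ENNReal.ofReal_inv_of_pos he,
        ← ENNReal.mul_le_iff_le_inv (by simpa using he) ENNReal.ofReal_ne_top,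
        ENNReal.ofReal_mul (by positivity), ENNReal.ofReal_mul (by positivity),
        ENNReal.ofReal_add ENNReal.toReal_nonneg hD, ENNReal.ofReal_toReal hH, ENNReal.ofReal_ofNat,
        ENNReal.ofReal_ofNat, Finset.mul_sum]
      refine (Finset.sum_le_sum fun Q _ => b1 Q).trans ?_
      simp only [Measure.add_apply, withDensity_apply _ MeasurableSet.univ, Measure.restrict_univ]
      rw [← Finset.mul_sum, Finset.sum_add_distrib, mul_add 343]
      exact mul_le_mul_right (add_le_add s1 s3) _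
    refine (measure_biUnion_finset_le _ _).trans ((Finset.sum_le_sum fun Q hQ =>
      (stm_prod_le hC h (b0 Q) _ (rQ_pos Q)).trans (mul_le_mul_left (ENNReal.ofReal_le_ofReal
        (show _ ≤ A * Real.exp 4 * Real.exp (2 * y₀) from ?_)) _)).trans ?_)
    · rw [hr Q hQ, mul_assoc, ← Real.exp_add, ← Real.exp_nat_mul]
      gcongr
      push_cast
      linarith
    · rw [← Finset.mul_sum, mul_right_comm (A * Real.exp 4) _ (Real.exp (2 * y₀)),
        ENNReal.ofReal_mul (p := A * Real.exp 4 * Real.exp (2 * y₀)) (by positivity)]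
      exact mul_le_mul_right s4 _
  · obtain ⟨Q, q1, q2, q3⟩ := P218UD.exists_lat p.2 (j - 2)
    have q4 : Q.1 = j := by
      have e1 : ((j - 1 : ℤ) : ℝ) < Q.1 := by push_cast; linarith
      have e2 : (Q.1 : ℝ) ≤ j := by linarith
      have e3 := Int.cast_lt.1 e1
      have e4 := Int.cast_le.1 e2
      omega
    have q5 : rQ Q = Real.exp j := by rw [rQ, q4]
    have q6 : dist p.2 (zQ Q) < rQ Q := q1
    have hQ : Q ∈ F := (hF Q).2 ⟨q4, mem_ball.2 (by
      linarith [mem_ball.1 (h2 ⟨p, hp, rfl⟩), dist_triangle_left (zQ Q) 0 p.2, j3.2])⟩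
    have r0 := Real.exp_pos y
    have r1 : Real.exp y ≤ rQ Q := q5 ▸ Real.exp_le_exp.2 (by linarith [hy.2])
    have r2 : Real.exp y ^ 2 ≤ η ∧ Real.exp y ^ 2 ≤ 1 := by
      constructor <;> nlinarith [j3.1, j3.2]
    have r3 : Icc (p.1 - Real.exp y ^ 2) p.1 ⊆ Icc a b := Icc_subset_Icc
      (by linarith [(h1 _ ⟨p, hp, rfl⟩).1, r2.1]) (h1 _ ⟨p, hp, rfl⟩).2
    rw [tbar, show Real.exp (2 * y) = Real.exp y ^ 2 by rw [← Real.exp_nat_mul]; norm_num] at h4
    obtain ⟨τ, t1, t2⟩ := drop hC h r0 hσ hσ1 (r3.trans hab) (h.notMem h0) h3 h4 (c1 Q) (c2 Q)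
      (fun _ => (ψ Q).nonneg) (fun x hx => ((ψ Q).one_of_mem_closedBall
        (closedBall_subset_closedBall' (show _ ≤ 2 * rQ Q by linarith) hx)).ge)
      (closedBall_subset_ball' (show _ < 3 * rQ Q by linarith))
    have t3 : p.1 ∈ Icc (p.1 - Real.exp y ^ 2) p.1 := right_mem_Icc.2 (by nlinarith)
    refine mem_biUnion (Finset.mem_coe.2 hQ) ⟨b2 Q _ _ (by positivity) r2.2 ?_ t3, q6⟩
    rw [Measure.add_apply, withDensity_apply _ measurableSet_Icc,
      Measure.restrict_restrict measurableSet_Icc, inter_eq_left.2 r3, ← hE]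
    exact t2.trans (add_le_add le_rfl ((n2 Q τ ⟨r3 t1.1, t1.2⟩ _ ⟨r3 t3, h.notMem h0⟩
      t1.1.2).trans (measure_mono (Icc_subset_Icc_left t1.1.1))))

end Vale.Agent.P218WL
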